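import Crest.Agent.X262.L11a5.Loc
import Crest.Agent.X262.Lat.LDefs
import Crest.Agent.X277.AN.A2Pc
import Crest.Agent.X277.Dic.Fr

/-!
# Row 262, L11A (helper5): Lefschetz's theorem on `(1,1)`-classes, for line bundles

* `Fm A q v U e` : a frame over `U` which is holomorphic for `q ∂̄ - v`; `exists_fm`, `Fm.hol`;
* `exists_iso`   : frames with holomorphic transition functions come from a divisor;
* `l11aStmt : Lat.L11AStmt`.
-/

set_option autoImplicit false
set_option linter.unusedSectionVars false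

open Set Filter Topology Matrix
open scoped ContDiff KaehlerDifferential

noncomputable section

namespace Crest.Agent.X262.L11a5

open Crest.Agent.R208.CW Crest.Agent.X262.Frm Crest.Agent.X262.Kah Crest.Agent.X262.Lat
open Crest.Agent.X262.Man (Emb SmOn smOn_of_local)
open Crest.Agent.R275.Geo (Cn Atl)
open Crest.Agent.R275.Core144 (HolAt LB isOpen_ti)
open Crest.Agent.R273.Map_835 (HolMap holAt_of_local)
open Crest.Agent.R273.GreenM_5 (ci mem_ci)

variable {n : ℕ} {N : Type} [Fintype N] [DecidableEq N]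

section Man

variable {M : Type} [TopologicalSpace M] {A : Atl n M} {q : M → Matrix N N ℂ} {v : FS A}
  {U U' : Set M} {e e' : M → N → ℂ}

theorem ev_symm {i : A.ι} {x : M} (hx : x ∈ (A.e i).source) {p : M → Prop}
    (h : ∀ᶠ y in 𝓝 x, p y) : ∀ᶠ z in 𝓝 (A.e i x), p ((A.e i).symm z) :=
  ((A.e i).tendsto_symm hx).eventually h

theorem cda {i : A.ι} {f : M → ℂ} (h : HolAt A i U f) (hU : IsOpen U) {x : M}
    (hx : x ∈ (A.e i).source) (hxU : x ∈ U) :
    ContDiffAt ℝ ∞ (fun z => f ((A.e i).symm z)) (A.e i x) :=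
  (h.contDiffOn hU).contDiffAt ((isOpen_ti hU).mem_nhds
    ⟨(A.e i).map_source hx, by rw [mem_preimage, (A.e i).left_inv hx]; exact hxU⟩)

variable (A q v U e) in
/-- a holomorphic frame -/
structure Fm : Prop where
  op : IsOpen U
  sm : SmOn A U e
  mem : ∀ x ∈ U, q x *ᵥ e x = e x
  ne : ∀ x ∈ U, e x ≠ 0
  flat : ∀ i, ∀ x ∈ (A.e i).source, x ∈ U →
    Flat (q x) (cv (v.1 i (A.e i x))) (fun z => e ((A.e i).symm z)) (A.e i x)

theorem exists_fm (h1 : ∀ i, ∀ z ∈ (A.e i).target, SM ∞ (fun z => q ((A.e i).symm z)) z)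
    (h2 : ∀ x, q x * q x = q x) (h3 : ∀ x, (q x).trace = 1)
    (hv : ∀ i, ∀ z ∈ (A.e i).target,
      IsType (Jc (Cn n)) 1 1 (sf 1 (fun z => q ((A.e i).symm z)) z - dC (v.1 i) z)) (x : M) :
    ∃ U e, x ∈ U ∧ Fm A q v U e := by
  obtain ⟨i, hi⟩ := A.cover x
  have ht := tgt_mem ((A.e i).map_source hi)
  obtain ⟨e, he⟩ := exists_flat (q := fun z => q ((A.e i).symm z)) (v := v.1 i) (p := A.e i x)
    (mem_of_superset ht fun z hz => ⟨h1 i z hz, h2 _, h3 _⟩)
    (mem_of_superset ht fun z hz => ⟨v.sm hz, hv i z hz⟩)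
  obtain ⟨W, hW, ho, hx⟩ := mem_nhds_iff.1 he
  refine ⟨(A.e i).source ∩ A.e i ⁻¹' W, fun y => e (A.e i y), ⟨hi, hx⟩,
    (A.e i).isOpen_inter_preimage ho, smOn_of_local fun y hy => ⟨i, hy.1, ?_⟩, fun y hy => ?_,
    fun y hy => (hW hy.2).2.2.1, fun k y hk hy => ?_⟩
  · refine (hW hy.2).1.congr_of_eventuallyEq ?_
    filter_upwards [tgt_mem ((A.e i).map_source hy.1)] with z hz
    rw [(A.e i).right_inv hz]
  · have h4 := (hW hy.2).2.1
    rwa [(A.e i).left_inv hy.1] at h4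
  · have hz := mem_ov (A := A) ⟨hk, hy.1⟩
    obtain ⟨h4, -, -, h5⟩ := hW hy.2
    rw [(A.e i).left_inv hy.1, ← tr_e (j := i) hk] at h5
    rw [← tr_e (j := i) hk] at h4
    rw [v.tr' hz, cv_pbC]
    exact h5.pull (h4.differentiableAt (by simp)) (tr_holo hz).self_of_nhds

theorem Fm.hol (h : Fm A q v U e) (h' : Fm A q v U' e') (h2 : ∀ x, q x * q x = q x)
    (h3 : ∀ x, (q x).trace = 1) :
    ∃ g : M → ℂ, (∀ x ∈ U ∩ U', e' x = g x • e x) ∧ ∀ i, HolAt A i (U ∩ U') g := by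
  have h4 : ∀ x, ∃ c : ℂ, x ∈ U ∩ U' → e' x = c • e x := fun x => by
    by_cases hx : x ∈ U ∩ U'
    · obtain ⟨r, hr⟩ := Function.ne_iff.1 (h.ne x hx.1)
      exact ⟨_, fun _ => eq_smul (h2 x) (h3 x) (h.mem x hx.1) (h'.mem x hx.2) hr⟩
    · exact ⟨0, fun h => absurd h hx⟩
  choose g hg using h4
  refine ⟨g, hg, fun i z hz => ?_⟩
  have hx := (A.e i).map_target hz.1
  have hU : (A.e i).symm z ∈ U ∩ U' := hz.2
  generalize hxe : (A.e i).symm z = x at hx hU
  obtain rfl : z = A.e i x := by rw [← hxe, (A.e i).right_inv hz.1]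
  have hd := (h.sm i x hx hU.1).differentiableAt (by simp)
  have hd' := (h'.sm i x hx hU.2).differentiableAt (by simp)
  have h5 := ev_symm hx (mem_of_superset ((h.op.inter h'.op).mem_nhds hU) hg)
  obtain ⟨r, hr⟩ := Function.ne_iff.1 (h.ne x hU.1)
  have hr' : e ((A.e i).symm (A.e i x)) r ≠ 0 := by rwa [hxe]
  refine ((h.flat i x hx hU.1).hol (h'.flat i x hx hU.2) hd ?_ h5 ?_ ?_).differentiableWithinAt
  · refine ((differentiableAt_pi.1 hd' r).mul
      ((differentiableAt_pi.1 hd r).inv hr')).congr_of_eventuallyEq ?_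
    filter_upwards [h5, (differentiableAt_pi.1 hd r).continuousAt.eventually_ne hr'] with w h6 h7
    simp only [Pi.mul_apply, Pi.inv_apply, h6, Pi.smul_apply, smul_eq_mul,
      mul_inv_cancel_right₀ h7]
  · rw [hxe]
    exact h.mem x hU.1
  · rw [hxe]
    exact h.ne x hU.1

end Man

section Alg

open Crest.Agent.X277 Crest.Agent.X277.Lef Crest.Agent.X277.AN.G1 Crest.Agent.X277.BD
open Crest.Agent.X277.BD.Br Crest.Agent.X277.AN.A2P
open Crest.Agent.X277.AN.G1.AnP (fr fr_ne)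

variable {F : Type} [Field F] [Algebra ℂ F] {P : PModel ℂ F}

theorem holMap (b : Module.Basis (Fin n) F Ω[F⁄ℂ]) (X X' : AnP P n) : HolMap X.A X'.A id := by
  have h := Mdl.bih (D := selfMdl X' b) X
  rw [selfMdl_e] at h
  exact h.toHolMap

/-- frames with holomorphic transition functions come from a divisor -/
theorem exists_iso (b : Module.Basis (Fin n) F Ω[F⁄ℂ]) (X : AnP P n) {q : Pts P → Matrix N N ℂ}
    {κ : Type} {U : κ → Set (Pts P)} {e : κ → Pts P → N → ℂ} {g : κ → κ → Pts P → ℂ}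
    (hU : ∀ k, IsOpen (U k)) (hc : ∀ x, ∃ k, x ∈ U k) (hs : ∀ k, SmOn X.A (U k) (e k))
    (hm : ∀ k, ∀ x ∈ U k, q x *ᵥ e k x = e k x) (hn : ∀ k, ∀ x ∈ U k, e k x ≠ 0)
    (ht : ∀ k k', ∀ x ∈ U k ∩ U k', e k' x = g k k' x • e k x)
    (hh : ∀ k k' i, HolAt X.A i (U k ∩ U k') (g k k')) : ∃ a ∈ On P, ∃ s, Iso X a q s := by
  classical
  obtain ⟨X0, h0⟩ := exists_AnP b U hU hc
  choose p hp using h0
  let L : LB X0.A :=
    { g := fun α β x =>
        if x ∈ (X0.A.e α).source ∩ (X0.A.e β).source then g (p α) (p β) x else 1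
      hol := fun α β => holAt_of_local fun x hx hx' =>
        ⟨(X0.A.e α).source ∩ (X0.A.e β).source ∩ (X.A.e (ci X.A x)).source,
          ((X0.A.e α).open_source.inter (X0.A.e β).open_source).inter (X.A.e _).open_source,
          ⟨⟨hx, hx'⟩, mem_ci x⟩,
          (((holMap b X0 X).comp_holAt (i := α) (hh (p α) (p β) (ci X.A x))).mono
            fun y hy => ⟨⟨hp α hy.1.1, hp β hy.1.2⟩, hy.2⟩).congr fun y _ hy => (if_pos hy.1).symm⟩
      off := fun α β x hx => if_neg hx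
      self := fun α x => by
        split_ifs with hx
        · refine smul_left_injective ℂ (hn _ x (hp α hx.1)) ?_
          exact (ht _ _ x ⟨hp α hx.1, hp α hx.1⟩).symm.trans (one_smul _ _).symm
        · rfl
      mul := fun α β γ x hx => by
        rw [if_pos hx.1, if_pos ⟨hx.1.2, hx.2⟩, if_pos ⟨hx.1.1, hx.2⟩]
        refine smul_left_injective ℂ (hn _ x (hp α hx.1.1)) ?_
        simp only []
        rw [← ht _ _ x ⟨hp α hx.1.1, hp γ hx.2⟩, mul_comm, mul_smul,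
          ← ht _ _ x ⟨hp α hx.1.1, hp β hx.1.2⟩, ← ht _ _ x ⟨hp β hx.1.2, hp γ hx.2⟩] }
  obtain ⟨X', -, -, -, -, hφ⟩ := exists_frm X0 b (fun _ : Unit => L) (fun _ : Unit => univ)
    (fun _ => isOpen_univ) fun x => ⟨(), mem_univ x⟩
  obtain ⟨φ, ⟨T⟩⟩ := hφ ()
  obtain ⟨a, ha0⟩ := Dic.exists_bd φ
  have ha : ∀ α, ∀ x ∈ (X'.A.e α).source, At a x (fr φ α) := ha0
  let s : F → Pts P → N → ℂ := fun f x =>
    (ev (f / fr φ (ci X'.A x)) x * (T.c (ci X'.A x) (ci X0.A x) x)⁻¹) • e (p (ci X0.A x)) x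
  have key : ∀ f α j x, At a x f → x ∈ (X'.A.e α).source → x ∈ (X0.A.e j).source →
      s f x = (ev (f / fr φ α) x * (T.c α j x)⁻¹) • e (p j) x := by
    intro f α j x hf hα hj
    have h1 := T.left _ α _ x ⟨mem_ci x, hα⟩ (mem_ci x)
    have h2 := T.right α _ j x hα ⟨mem_ci x, hj⟩
    have h3 : L.g (ci X0.A x) j x = g (p (ci X0.A x)) (p j) x := if_pos ⟨mem_ci x, hj⟩
    have h4 := L.ne_zero (ci X0.A x) j x
    have h5 := T.ne α _ x hα (mem_ci x)
    have h6 := AnP.fr_div_ne φ ⟨mem_ci x, hα⟩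
    have h7 : ev (f / fr φ (ci X'.A x)) x =
        ev (f / fr φ α) x * ev (fr φ α / fr φ (ci X'.A x)) x := by
      rw [← div_mul_div_cancel₀ (fr_ne φ α)]
      exact (lp x).v_mul (LP.mem_of_ne (hf.ev_div_ne (ha α x hα))) (LP.mem_of_ne h6)
    rw [AnP.lbF_g φ ⟨mem_ci x, hα⟩] at h1
    rw [ht _ _ x ⟨hp _ (mem_ci x), hp j hj⟩, ← h3, smul_smul, ← h2]
    simp only [s]
    rw [← h1, h7]
    congr 1
    simp only [id] at h5 ⊢
    field_simp
  refine ⟨a, fun x => ⟨_, ha _ x (mem_ci x)⟩, s, fun f i x hx hf => ?_, fun x f _ => ?_,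
    fun x f hf => ?_, fun x f f' hf hf' => ?_⟩
  · have h1 := cda (X.hol i (f / fr φ (ci X'.A x))) (isOpen_reg _) hx
      (LP.mem_of_ne (At.ev_div_ne hf (ha _ x (mem_ci x))))
    have h2 := cda ((holMap b X X').comp_holAt (i := i) (T.hol (ci X'.A x) (ci X0.A x)))
      ((X0.A.e _).open_source.inter (X'.A.e _).open_source) hx ⟨mem_ci x, mem_ci x⟩
    have h3 : T.c (ci X'.A x) (ci X0.A x) ((X.A.e i).symm (X.A.e i x)) ≠ 0 := by
      rw [(X.A.e i).left_inv hx]
      exact T.ne _ _ x (mem_ci x) (mem_ci x)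
    refine ((h1.mul (h2.inv h3)).smul (hs _ i x hx (hp _ (mem_ci x)))).congr_of_eventuallyEq
      (ev_symm hx (p := fun y => s f y = (ev (f / fr φ (ci X'.A x)) y *
        (T.c (ci X'.A x) (ci X0.A x) y)⁻¹) • e (p (ci X0.A x)) y) ?_)
    filter_upwards [At.eventually hf, (X'.A.e _).open_source.mem_nhds (mem_ci x),
      (X0.A.e _).open_source.mem_nhds (mem_ci x)] with y h4 h5 h6 using key f _ _ y h4 h5 h6
  · simp only [s]
    rw [Matrix.mulVec_smul, hm _ x (hp _ (mem_ci x))]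
  · exact smul_ne_zero (mul_ne_zero (hf.ev_div_ne (ha _ x (mem_ci x)))
      (inv_ne_zero (T.ne _ _ x (mem_ci x) (mem_ci x)))) (hn _ x (hp _ (mem_ci x)))
  · simp only [s]
    rw [smul_smul, ← mul_assoc, ← div_mul_div_cancel₀ (a := f') hf.ne]
    congr 2
    exact (lp x).v_mul (LP.mem_of_ne (hf'.ev_div_ne hf))
      (LP.mem_of_ne (hf.ev_div_ne (ha _ x (mem_ci x))))

/-- **Lefschetz's theorem on `(1,1)`-classes**, for line bundles -/
theorem l11aStmt : L11AStmt := by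
  intro F _ _ P n b X E _ _ _ ε N _ _ Q h u hu hc
  have hz := sf_mem_Z_gen h.idf 1
  rw [Ln.c1, ← toH_res ε hz, ← map_smul, eq_comm, toH_eq_iff] at hc
  obtain ⟨w, hw⟩ := hc
  have h2 : ∀ x, Q (ε.j x) * Q (ε.j x) = Q (ε.j x) := fun x => h.idf.idem _ (ε.mem x)
  have h3 : ∀ x, (Q (ε.j x)).trace = 1 := fun x => h.tr _ (ε.mem x)
  have h4 := exists_fm (A := X.A) (q := fun x => Q (ε.j x)) (v := kap⁻¹ • w)
    (fun i z hz => (h.idf.smooth _ (ε.par_mem i z)).comp (ε.contDiffAt_par hz)) h2 h3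
    fun i z hi => by
      have h5 : sf 1 (fun z => Q (ε.j ((X.A.e i).symm z))) z = (res0 ε _ hz.2.1).1 i z :=
        ((res0_apply ε hz.2.1 hi).trans (pullC_sf ((ε.contDiffAt_par hi).of_le two_le)
          (h.idf.s1 (ε.par_mem i z)) 1)).symm
      rw [← dF_apply _ hi, map_smul, hw, h5, FS.smul_apply, FS.sub_apply, smul_sub,
        Subalgebra.coe_smul, FS.smul_apply, smul_smul, inv_mul_cancel₀ kap_ne, one_smul,
        sub_sub_cancel]
      exact Submodule.smul_mem _ _ (hu i z hi)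
  choose U e hx hf using h4
  choose g h5 h6 using fun x y => (hf x).hol (hf y) h2 h3
  exact exists_iso b X (fun x => (hf x).op) (fun x => ⟨x, hx x⟩) (fun x => (hf x).sm)
    (fun x => (hf x).mem) (fun x => (hf x).ne) h5 h6

end Alg

end Crest.Agent.X262.L11a5
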