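import Crest.Agent.X262.Frm.Dol
import Crest.Agent.R208.CW1
import Crest.Agent.R281.KpD_487

/-!
# Row 262, L11A (helper5), part Loc: local holomorphic frames of a smooth line bundle

* `sc`, `cv`  : the scalar part and the covector part of a form; `cv_ctr_dC`;
* `CL E`      : complex linear covectors; `exists_pot` : the local `∂̄`-lemma;
* `d_th`      : `d (σ ds) = tr (q dq dq)` for `q = s σ`;
* `Flat`      : frames which are holomorphic for the connection `q ∂̄ - η`;
  `Flat.pull`, `Flat.hol`, `exists_flat`.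
-/

set_option autoImplicit false
set_option linter.unusedSectionVars false

open Set Filter Topology Complex Matrix
open scoped ContDiff

noncomputable section

namespace Crest.Agent.X262.L11a5

open Crest.Agent.R208.F Crest.Agent.R208.CW Crest.Agent.X262.Frm
open Crest.Agent.R275.Geo (Cn dbj)
open Crest.Agent.R281.KpD_487 (PD dbar_solve exists_PD_subset isOpen_PD mem_PD_self)

section alg

variable {E F : Type*} [AddCommGroup E] [Module ℝ E] [AddCommGroup F] [Module ℝ F]

/-- the scalar part of a form -/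
def sc : CF E →ₐ[ℂ] ℂ := liftC 0 fun _ => by simp

theorem sc_ioC (l : W E) : sc (ioC l) = 0 := liftC_ioC _ _ l

theorem sc_pbC (A : E →ₗ[ℝ] F) (c : CF F) : sc (pbC A c) = sc c := by
  have : (sc (E := E)).comp (pbA A) = sc := algHom_extC fun l => by simp [sc_ioC]
  exact AlgHom.congr_fun this c

/-- the covector part of a form -/
def cv : CF E →ₗ[ℂ] W E where
  toFun a :=
    { toFun := fun w => sc (iiC w a)
      map_add' := fun v w => by rw [map_add, LinearMap.add_apply, map_add]
      map_smul' := fun r w => by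
        rw [map_smul, LinearMap.smul_apply, rsmul_eq, map_smul, RingHom.id_apply, real_smul,
          smul_eq_mul] }
  map_add' a b := LinearMap.ext fun w => by simp
  map_smul' z a := LinearMap.ext fun w => by simp

theorem cv_apply (a : CF E) (w : E) : cv a w = sc (iiC w a) := rfl

theorem cv_algebraMap (z : ℂ) : cv (algebraMap ℂ (CF E) z) = 0 :=
  LinearMap.ext fun w => by rw [cv_apply, iiC_algebraMap, map_zero]; rfl

theorem cv_ioC_mul (l : W E) (c : CF E) : cv (ioC l * c) = sc c • l :=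
  LinearMap.ext fun w => by
    rw [cv_apply, iiC_ioC_mul, map_sub, map_mul, sc_ioC, zero_mul, sub_zero, map_smul,
      LinearMap.smul_apply, smul_eq_mul, smul_eq_mul, mul_comm]

theorem cv_ioC (l : W E) : cv (ioC l) = l := by
  have := cv_ioC_mul l 1
  rwa [mul_one, map_one, one_smul] at this

theorem cv_pbC (A : E →ₗ[ℝ] F) (c : CF F) : cv (pbC A c) = pre A (cv c) :=
  LinearMap.ext fun w => by rw [cv_apply, iiC_pbC, sc_pbC]; rfl

theorem sc_ctr (φ : Module.Dual ℂ (W E)) (a : CF E) : sc (ctr φ a) = φ (cv a) := by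
  induction a using indC with
  | h0 z => rw [ctr_algebraMap, cv_algebraMap, map_zero, map_zero]
  | hadd x y hx hy => simp only [map_add, hx, hy]
  | hmul x l _ =>
    rw [ctr_ioC_mul, cv_ioC_mul, map_sub, map_mul, sc_ioC, zero_mul, sub_zero, map_smul, map_smul,
      smul_eq_mul, smul_eq_mul, mul_comm]

theorem cv_ctr_11 {J : E →ₗ[ℝ] E} (hJ : IsJ J) {u : CF E} (hu : IsType J 1 1 u) (v w : E) :
    v01 J v (cv (ctr (v01 J w) u)) = 0 := by
  have h : ∀ (v : E) l, v01 J v (P10 J l) = 0 := fun v l => by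
    rw [v01_apply, idem_apply hJ.idem, sub_self]; rfl
  rw [← sc_ctr, ctr_01_of_mem (h v) (Ty_ctr_01 hJ.idem (h w) hu), map_zero]

end alg

section idem

variable {N : Type*} [Fintype N] [DecidableEq N] {q : Matrix N N ℂ}

theorem eq_zero_of_trace (h : q * q = q) (h0 : q.trace = 0) : q = 0 := by
  have h1 : IsIdempotentElem (Matrix.toLin' q) := by
    rw [IsIdempotentElem, Module.End.mul_eq_comp, ← Matrix.toLin'_mul, h]
  have h2 := LinearMap.IsIdempotentElem.eq_zero_of_trace_eq_zero h1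
    (by rw [Matrix.trace_toLin'_eq, h0])
  exact (LinearEquiv.map_eq_zero_iff _).1 h2

/-- the `k`-th column -/
def col (q : Matrix N N ℂ) (k : N) : Matrix N Unit ℂ := Matrix.of fun i _ => q i k

/-- the normalised `k`-th row -/
def row (q : Matrix N N ℂ) (k : N) : Matrix Unit N ℂ := Matrix.of fun _ j => (q k k)⁻¹ * q k j

theorem exists_diag (h1 : q.trace = 1) : ∃ k, q k k ≠ 0 := by
  by_contra! h
  simp [Matrix.trace, h] at h1

theorem row_col (h : q * q = q) {k : N} (hk : q k k ≠ 0) : row q k * col q k = 1 := by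
  ext i j
  have h1 : ∑ a, q k a * q a k = q k k := congrFun (congrFun h k) k
  simp only [Matrix.mul_apply, row, col, of_apply, mul_assoc, ← Finset.mul_sum, h1,
    inv_mul_cancel₀ hk, Subsingleton.elim i j, one_apply_eq]

theorem mul_col (h : q * q = q) (k : N) : q * col q k = col q k := by
  ext i j
  exact congrFun (congrFun h i) k

theorem row_mul (h : q * q = q) (k : N) : row q k * q = row q k := by
  ext i j
  have h1 : ∑ a, q k a * q a j = q k j := congrFun (congrFun h k) j
  simp only [Matrix.mul_apply, row, of_apply, mul_assoc, ← Finset.mul_sum, h1]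

theorem col_row (h : q * q = q) (h1 : q.trace = 1) {k : N} (hk : q k k ≠ 0) :
    q = col q k * row q k := by
  rw [← sub_eq_zero]
  refine eq_zero_of_trace ?_ ?_
  · rw [mul_sub, sub_mul, sub_mul, h, Matrix.mul_assoc (col q k) _ q, row_mul h,
      ← Matrix.mul_assoc q, mul_col h, Matrix.mul_assoc (col q k), ← Matrix.mul_assoc (row q k),
      row_col h hk, Matrix.one_mul, sub_self, sub_zero]
  · rw [trace_sub, h1, trace_mul_comm, row_col h hk]
    simp

/-- two vectors of a line are proportional -/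
theorem eq_smul (h : q * q = q) (h1 : q.trace = 1) {e e' : N → ℂ} (he : q *ᵥ e = e)
    (he' : q *ᵥ e' = e') {r : N} (hr : e r ≠ 0) : e' = (e' r / e r) • e := by
  obtain ⟨k, hk⟩ := exists_diag h1
  have h2 : ∀ f : N → ℂ, q *ᵥ f = f → ∀ i, f i = q i k * (row q k *ᵥ f) () := fun f hf i => by
    conv_lhs => rw [← hf, col_row h h1 hk, ← Matrix.mulVec_mulVec]
    simp [Matrix.mulVec, dotProduct, col]
  funext i
  have h3 := h2 e he r
  rw [Pi.smul_apply, smul_eq_mul, h2 e' he' i, h2 e' he' r, h2 e he i, div_mul_eq_mul_div,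
    eq_div_iff hr, h3]
  ring

end idem

section der

variable {E F : Type*} [NormedAddCommGroup E] [NormedSpace ℝ E] [FiniteDimensional ℝ E]
  [NormedAddCommGroup F] [NormedSpace ℝ F] [FiniteDimensional ℝ F]

/-- the differential of a function -/
def D (f : E → ℂ) (x : E) : W E := ((fderiv ℝ f x : E →L[ℝ] ℂ) : E →ₗ[ℝ] ℂ)

theorem D_apply (f : E → ℂ) (x v : E) : D f x v = fderiv ℝ f x v := rfl

theorem D_congr {f g : E → ℂ} {x : E} (h : f =ᶠ[𝓝 x] g) : D f x = D g x := by
  rw [D, D, h.fderiv_eq]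

theorem D_mul {f g : E → ℂ} {x : E} (hf : DifferentiableAt ℝ f x) (hg : DifferentiableAt ℝ g x) :
    D (fun y => f y * g y) x = f x • D g x + g x • D f x := by
  rw [D, fderiv_fun_mul hf hg]
  rfl

theorem D_exp {f : E → ℂ} {x : E} (hf : DifferentiableAt ℝ f x) :
    D (fun y => exp (f y)) x = exp (f x) • D f x := by
  rw [D, hf.hasFDerivAt.cexp.fderiv]
  rfl

theorem D_neg (f : E → ℂ) (x : E) : D (fun y => - f y) x = - D f x := by
  rw [D, fderiv_fun_neg]
  rfl

theorem D_comp {f : E → F} {g : F → ℂ} {x : E} (hg : DifferentiableAt ℝ g (f x))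
    (hf : DifferentiableAt ℝ f x) :
    D (fun y => g (f y)) x = pre ((fderiv ℝ f x : E →L[ℝ] F) : E →ₗ[ℝ] F) (D g (f x)) := by
  rw [D, fderiv_fun_comp x hg hf]
  rfl

theorem cv_ctr_dC (φ ψ : Module.Dual ℂ (W E)) {β : E → CF E} {x : E}
    (h : DifferentiableAt ℝ β x) : ψ (cv (ctr φ (dC β x))) =
      φ (D (fun y => ψ (cv (β y))) x) - ψ (D (fun y => φ (cv (β y))) x) := by
  have h1 : ∀ χ : Module.Dual ℂ (W E), D (fun y => χ (cv (β y))) x =
      ∑ i, χ (cv (fderiv ℝ β x (Module.finBasis ℝ E i))) •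
        ofD ((Module.finBasis ℝ E).coord i) := fun χ => by
    rw [← W_sum (Module.finBasis ℝ E) (D _ x)]
    exact Finset.sum_congr rfl fun i _ => by
      rw [D_apply]
      exact congrArg (· • _) (fderiv_lin (χ ∘ₗ cv) h _)
  rw [dC_eq_sum (Module.finBasis ℝ E) h, h1, h1]
  simp only [map_sum, ctr_ioC_mul, map_sub, map_smul, cv_ioC_mul, sc_ctr, smul_eq_mul,
    ← Finset.sum_sub_distrib]
  exact Finset.sum_congr rfl fun i _ => by ring

theorem DD_congr {m l : Type*} {A B : E → Matrix m l ℂ} {x : E} (h : A =ᶠ[𝓝 x] B) :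
    DD A x = DD B x :=
  Matrix.ext fun i j => dC_congr (h.mono fun y hy => by simp only [hy])

variable {N : Type*} [Fintype N] [DecidableEq N]

/-- the connection form of a frame -/
def th (σ : E → Matrix Unit N ℂ) (s : E → Matrix N Unit ℂ) (y : E) : CF E :=
  (hat E (σ y) * DD s y).trace

theorem d_th {σ : E → Matrix Unit N ℂ} {s : E → Matrix N Unit ℂ} {q : E → Matrix N N ℂ} {x : E}
    (hσ : SM 1 σ x) (hs : SM 2 s x) (h1 : ∀ᶠ y in 𝓝 x, σ y * s y = 1)
    (hq : ∀ᶠ y in 𝓝 x, q y = s y * σ y) : dC (th σ s) x = sf 1 q x := by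
  have hs1 : SM 1 s x := hs.of_le (by norm_num)
  have hD : MD 1 (DD s) x := hs.MD_DD (by norm_num)
  have e1 : dC (th σ s) x = (DD σ x * DD s x).trace := by
    change dC (fun y => (hat E (σ y) * DD s y).trace) x = _
    rw [dC_trace (hσ.hat.mul hD), dM_mul hσ.hat hD, dM_DD hs, Matrix.mul_zero, add_zero]
    rfl
  have e2 : DD q x = DD s x * hat E (σ x) + hat E (s x) * DD σ x := by
    rw [DD_congr hq, DD_mul hs1 hσ]
  have e3 : DD σ x * hat E (s x) = - (hat E (σ x) * DD s x) := by
    rw [eq_neg_iff_add_eq_zero, ← DD_mul hσ hs1, DD_congr h1, DD_const]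
  have e4 : hat E (σ x) * hat E (s x) = 1 := by rw [← hat_mul, h1.self_of_nhds, hat_one]
  set t := hat E (σ x) * DD s x with ht
  have e5 : t * t = 0 := by
    have h2 : invC (t () ()) = - t () () := by
      have h3 : invM t = - t := by rw [ht, invM_mul, invM_hat, invM_DD, Matrix.mul_neg]
      exact congrFun (congrFun h3 ()) ()
    have h3 := odd_commC h2 (t () ())
    rw [h2, neg_mul, eq_neg_iff_add_eq_zero, ← two_smul ℂ] at h3
    ext i j : 1
    rw [Matrix.mul_apply, Fintype.sum_unique]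
    exact (smul_eq_zero.1 h3).resolve_left two_ne_zero
  have e6 : hat E (σ x) * DD q x = t * hat E (σ x) + DD σ x := by
    rw [e2, Matrix.mul_add, ← Matrix.mul_assoc, ← Matrix.mul_assoc, e4, Matrix.one_mul]
  have e7 : DD q x * hat E (s x) = DD s x - hat E (s x) * t := by
    rw [e2, Matrix.add_mul, Matrix.mul_assoc, Matrix.mul_assoc, e4, Matrix.mul_one, e3,
      Matrix.mul_neg, sub_eq_add_neg]
  rw [e1, sf, hq.self_of_nhds, hat_mul, Matrix.mul_assoc, trace_hat_comm, mul_one, sq,
    ← Matrix.mul_assoc, Matrix.mul_assoc, e6, e7, Matrix.add_mul, Matrix.mul_sub, Matrix.mul_sub,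
    Matrix.mul_assoc t, Matrix.mul_assoc t, ← ht, ← Matrix.mul_assoc (hat E (σ x)), e4,
    Matrix.one_mul, sub_self, zero_add, ← Matrix.mul_assoc (DD σ x), e3, Matrix.neg_mul, e5,
    neg_zero, sub_zero]

theorem cv_th {σ : E → Matrix Unit N ℂ} {s : E → Matrix N Unit ℂ} {x : E} (hs : SM 1 s x) :
    cv (th σ s x) = ∑ j, σ x () j • D (fun y => s y j ()) x := by
  rw [th, Matrix.trace, Fintype.sum_unique, diag_apply, Matrix.mul_apply, map_sum]
  refine Finset.sum_congr rfl fun j _ => ?_
  rw [DD_apply, dC_algebraMap ((hs j _).differentiableAt one_ne_zero)]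
  change cv (algebraMap ℂ (CF E) _ * _) = _
  rw [← Algebra.smul_def, map_smul, cv_ioC]
  rfl

end der

section cx

variable {E F : Type*} [NormedAddCommGroup E] [NormedSpace ℝ E] [FiniteDimensional ℝ E]
  [NormedSpace ℂ E] [IsScalarTower ℝ ℂ E]
  [NormedAddCommGroup F] [NormedSpace ℝ F] [FiniteDimensional ℝ F]
  [NormedSpace ℂ F] [IsScalarTower ℝ ℂ F]

variable (E) in
/-- complex linear covectors -/
def CL : Submodule ℂ (W E) where
  carrier := {l | ∀ w, l (I • w) = I * l w}
  add_mem' ha hb w := by rw [LinearMap.add_apply, LinearMap.add_apply, ha w, hb w, mul_add]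
  zero_mem' w := by simp
  smul_mem' c l h w := by
    rw [LinearMap.smul_apply, LinearMap.smul_apply, h w, smul_eq_mul, smul_eq_mul, mul_left_comm]

theorem pre_mem {f : E → F} {x : E} (hf : DifferentiableAt ℂ f x) {l : W F} (h : l ∈ CL F) :
    pre ((fderiv ℝ f x : E →L[ℝ] F) : E →ₗ[ℝ] F) l ∈ CL E := fun w =>
  (congrArg l (fderiv_J hf w)).trans (h _)

theorem hol_of_mem {g : E → ℂ} {x : E} (hg : DifferentiableAt ℝ g x) (h : D g x ∈ CL E) :
    DifferentiableAt ℂ g x := by
  refine (differentiableAt_iff_restrictScalars ℝ hg).2 ⟨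
    { toFun := D g x
      map_add' := map_add _
      map_smul' := fun c w => ?_
      cont := (fderiv ℝ g x).continuous }, ?_⟩
  · have h1 : c • w = c.re • w + c.im • I • w := by
      rw [← smul_assoc, ← smul_one_smul ℂ c.re w, ← add_smul]
      congr 1; simp
    rw [h1, map_add, map_smul, map_smul, h w, RingHom.id_apply]
    conv_rhs => rw [← re_add_im c]
    simp only [real_smul, smul_eq_mul]
    ring
  · ext w
    rfl

variable {N : Type*} [Fintype N] [DecidableEq N]

/-- `e` is holomorphic at `y` for the connection `q ∂̄ - η` -/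
def Flat (q : Matrix N N ℂ) (η : W E) (e : E → N → ℂ) (y : E) : Prop :=
  ∀ r, ∑ j, q r j • D (fun z => e z j) y - e y r • η ∈ CL E

variable {q : Matrix N N ℂ}

theorem Flat.congr {η : W E} {e e' : E → N → ℂ} {y : E} (h : Flat q η e y) (he : e =ᶠ[𝓝 y] e') :
    Flat q η e' y := fun r => by
  have h1 : ∀ j, D (fun z => e' z j) y = D (fun z => e z j) y := fun j =>
    D_congr (he.mono fun z hz => by simp only [hz])
  simp only [h1, ← he.self_of_nhds]
  exact h r

theorem Flat.pull {η : W F} {e : F → N → ℂ} {f : E → F} {x : E} (h : Flat q η e (f x))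
    (he : DifferentiableAt ℝ e (f x)) (hf : DifferentiableAt ℂ f x) :
    Flat q (pre ((fderiv ℝ f x : E →L[ℝ] F) : E →ₗ[ℝ] F) η) (fun y => e (f y)) x := fun r => by
  have h1 := pre_mem hf (h r)
  simp only [map_sub, map_sum, map_smul] at h1
  have h2 : ∀ j, D (fun z => e (f z) j) x = _ := fun j =>
    D_comp (g := fun z => e z j) (differentiableAt_pi.1 he j) (hf.restrictScalars ℝ)
  simp only [h2]
  exact h1

theorem Flat.hol {η : W E} {e e' : E → N → ℂ} {g : E → ℂ} {y : E} (h : Flat q η e y)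
    (h' : Flat q η e' y) (he : DifferentiableAt ℝ e y) (hg : DifferentiableAt ℝ g y)
    (h1 : ∀ᶠ z in 𝓝 y, e' z = g z • e z) (h2 : q *ᵥ e y = e y) (h3 : e y ≠ 0) :
    DifferentiableAt ℂ g y := by
  obtain ⟨r, hr⟩ := Function.ne_iff.1 h3
  have h4 := (h'.congr h1) r
  have h5 : ∀ j, D (fun z => (g z • e z) j) y = g y • D (fun z => e z j) y + e y j • D g y :=
    fun j => D_mul hg (differentiableAt_pi.1 he j)
  have h6 : ∑ j, q r j * e y j = e y r := congrFun h2 r
  have h7 : ∑ j, q r j • D (fun z => (g z • e z) j) y - (g y • e y) r • η -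
      g y • (∑ j, q r j • D (fun z => e z j) y - e y r • η) = e y r • D g y := by
    simp only [h5]
    simp only [smul_add, Finset.sum_add_distrib, smul_smul, ← Finset.sum_smul, h6, smul_sub,
      Finset.smul_sum, Pi.smul_apply, smul_eq_mul, mul_comm (g y)]
    abel
  have h8 := (CL E).smul_mem (e y r)⁻¹ (h7 ▸ sub_mem h4 ((CL E).smul_mem _ (h r)))
  rw [smul_smul, inv_mul_cancel₀ hr, one_smul] at h8
  exact hol_of_mem hg h8

end cx

section pot

variable {n : ℕ}

theorem I_single (a : Fin n) : (I • EuclideanSpace.single a (1 : ℂ) : Cn n) =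
    EuclideanSpace.single a I := by
  ext b
  simp [PiLp.single_apply]

theorem dbj_eq (a : Fin n) (f : Cn n → ℂ) (y : Cn n) :
    dbj a f y = v01 (Jc (Cn n)) (EuclideanSpace.single a 1) (D f y) := by
  rw [v01_apply, P01_apply, Jc_apply, I_single, dbj, one_div]
  rfl

theorem mem_CL {l : W (Cn n)} (h : ∀ a, v01 (Jc (Cn n)) (EuclideanSpace.single a 1) l = 0) :
    l ∈ CL (Cn n) := by
  have h1 : ∀ a, l (I • EuclideanSpace.single a (1 : ℂ)) = I * l (EuclideanSpace.single a 1) := by
    intro a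
    have h2 := h a
    rw [v01_apply, P01_apply, Jc_apply] at h2
    linear_combination (-2 * I) * h2 + l (I • EuclideanSpace.single a (1 : ℂ)) * I_mul_I
  intro w
  have h2 : w = ∑ a, ((w a).re • EuclideanSpace.single a (1 : ℂ) +
      (w a).im • I • EuclideanSpace.single a (1 : ℂ)) := by
    ext b
    simp [Pi.single_apply, apply_ite, Finset.sum_add_distrib]
  rw [h2, Finset.smul_sum, map_sum, map_sum, Finset.mul_sum]
  refine Finset.sum_congr rfl fun a _ => ?_
  rw [smul_add, smul_comm I, smul_comm I (w a).im, smul_smul I I, I_mul_I, neg_one_smul]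
  simp only [map_add, map_smul, map_neg, h1, real_smul]
  linear_combination (-(w a).im * l (EuclideanSpace.single a 1)) * I_mul_I

/-- the local `∂̄`-lemma -/
theorem exists_pot {β : Cn n → CF (Cn n)} {p : Cn n}
    (h : ∀ᶠ y in 𝓝 p, CD ∞ β y ∧ IsType (Jc (Cn n)) 1 1 (dC β y)) :
    ∃ f : Cn n → ℂ, ContDiff ℝ ∞ f ∧ ∀ᶠ y in 𝓝 p, cv (β y) - D f y ∈ CL (Cn n) := by
  obtain ⟨r, hr, hs⟩ := exists_PD_subset h
  obtain ⟨s, hs0, -, f, hf, h1⟩ := dbar_solve hr
    (f := fun a y => v01 (Jc (Cn n)) (EuclideanSpace.single a 1) (cv (β y)))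
    (fun a y hy => (ContDiffAt.lin (v01 (Jc (Cn n)) (EuclideanSpace.single a 1) ∘ₗ cv)
      (cd_iff.1 (hs hy).1)).contDiffWithinAt)
    fun a b y hy => by
      rw [dbj_eq, dbj_eq, ← sub_eq_zero,
        ← cv_ctr_dC _ _ ((cd_iff.1 (hs hy).1).differentiableAt (by simp))]
      exact cv_ctr_11 (isJ_Jc _) (hs hy).2 _ _
  refine ⟨f, hf, ?_⟩
  filter_upwards [(isOpen_PD p s).mem_nhds (mem_PD_self hs0)] with y hy
  exact mem_CL fun a => by rw [map_sub, ← dbj_eq, h1 a y hy, sub_self]

variable {N : Type*} [Fintype N] [DecidableEq N]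

/-- local holomorphic frames -/
theorem exists_flat {q : Cn n → Matrix N N ℂ} {v : Cn n → CF (Cn n)} {p : Cn n}
    (hq : ∀ᶠ y in 𝓝 p, SM ∞ q y ∧ q y * q y = q y ∧ (q y).trace = 1)
    (hv : ∀ᶠ y in 𝓝 p, CD ∞ v y ∧ IsType (Jc (Cn n)) 1 1 (sf 1 q y - dC v y)) :
    ∃ e : Cn n → N → ℂ, ∀ᶠ y in 𝓝 p, ContDiffAt ℝ ∞ e y ∧ q y *ᵥ e y = e y ∧ e y ≠ 0 ∧
      Flat (q y) (cv (v y)) e y := by
  obtain ⟨k, hk⟩ := exists_diag hq.self_of_nhds.2.2
  have h0 : ∀ᶠ y in 𝓝 p, q y k k ≠ 0 := (hq.self_of_nhds.1 k k).continuousAt.eventually_ne hk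
  have h1 : ∀ᶠ y in 𝓝 p, SM ∞ (fun z => row (q z) k) y ∧ SM ∞ (fun z => col (q z) k) y ∧
      row (q y) k * col (q y) k = 1 ∧ q y = col (q y) k * row (q y) k := by
    filter_upwards [hq, h0] with y hy hy0
    exact ⟨fun _ j => ((hy.1 k k).inv hy0).mul (hy.1 k j), fun i _ => hy.1 i k,
      row_col hy.2.1 hy0, col_row hy.2.1 hy.2.2 hy0⟩
  obtain ⟨f, hf, h2⟩ := exists_pot (p := p)
    (β := fun y => th (fun z => row (q z) k) (fun z => col (q z) k) y - v y) (by
      filter_upwards [h1.eventually_nhds, hv] with y hy hy'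
      have h3 := hy.self_of_nhds
      have h4 : CD ∞ (th (fun z => row (q z) k) fun z => col (q z) k) y :=
        (h3.1.hat.mul (h3.2.1.MD_DD inf_add_one)).trace
      refine ⟨h4.sub hy'.1, ?_⟩
      rw [dC_sub (h4.of_le one_le_inf) (hy'.1.of_le one_le_inf),
        d_th (q := q) (h3.1.of_le one_le_inf) (h3.2.1.of_le two_le) (hy.mono fun z hz => hz.2.2.1)
          (hy.mono fun z hz => hz.2.2.2)]
      exact hy'.2)
  refine ⟨fun y i => exp (- f y) * q y i k, ?_⟩
  filter_upwards [hq, h0, h1, h2] with y hy hy0 hy1 hy2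
  have hd : DifferentiableAt ℝ (fun z => - f z) y := (hf.differentiable (by simp) y).neg
  refine ⟨contDiffAt_pi.2 fun i => hf.contDiffAt.neg.cexp.mul (hy.1 i k), funext fun i => ?_,
    fun h => mul_ne_zero (exp_ne_zero _) hy0 (congrFun h k), fun r => ?_⟩
  · have h3 : ∑ a, q y i a * q y a k = q y i k := congrFun (congrFun hy.2.1 i) k
    simp only [Matrix.mulVec, dotProduct, mul_left_comm _ (exp (- f y)), ← Finset.mul_sum, h3]
  · have h3 : ∑ a, q y r a * q y a k = q y r k := congrFun (congrFun hy.2.1 r) k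
    have h4 : ∀ j, q y r j = q y r k * row (q y) k () j := fun j => by
      conv_lhs => rw [hy1.2.2.2]
      simp [Matrix.mul_apply, col]
    have h5 : ∀ j, D (fun z => exp (- f z) * q z j k) y = exp (- f y) • D (fun z => q z j k) y -
        (q y j k * exp (- f y)) • D f y := fun j => by
      rw [D_mul hd.cexp ((hy.1 j k).differentiableAt (by simp)), D_exp hd, D_neg, smul_neg,
        smul_neg, smul_smul, sub_eq_add_neg]
    have h6 := (CL (Cn n)).smul_mem (exp (- f y) * q y r k) hy2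
    rw [map_sub, cv_th (hy1.2.1.of_le one_le_inf)] at h6
    convert h6 using 1
    have h7 : ∑ j, q y r j • exp (- f y) • D (fun z => q z j k) y =
        (exp (- f y) * q y r k) • ∑ j, row (q y) k () j • D (fun z => col (q z) k j ()) y := by
      rw [Finset.smul_sum]
      refine Finset.sum_congr rfl fun j _ => ?_
      rw [smul_smul, smul_smul, h4 j]
      congr 1
      ring
    simp only [h5, smul_sub, Finset.sum_sub_distrib, h7, smul_smul (q y r _) (_ * _), ← mul_assoc,
      ← Finset.sum_smul, ← Finset.sum_mul, h3, mul_comm (q y r k)]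
    abel

end pot

end Crest.Agent.X262.L11a5
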